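import Vale.Agent.P365.T2.H213.Spec

/-!
# P365-T2: the energy half of the flow over `StW` (helper548)

`StW.Ok` gives, for every finite Lipschitz family, the exact derivative identity of the energy with
the loss kept and the law error paid by the hub.
-/

set_option linter.all false

namespace P365T2.H548

open P365L P365O P365T1 P365L.TL P365T1.Conc Matrix Complex MeasureTheory Filter Topology Set
open Vale.Agent.P365.J376 P365T2.H213
open scoped ComplexConjugate ENNReal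

/-- the Cauchy constant of the moving law -/
noncomputable def CL (lam E : ℝ) : ℝ :=
  2 * (1 + E ^ 2) * (5500 * ((1 + 2 * lam ^ 2) / (lam * tau0 / 2) ^ 2 + 2))

theorem CL_pos {lam : ℝ} (hlam : 0 < lam) (E : ℝ) : 0 < CL lam E := by
  unfold CL
  positivity

theorem cau2_mov {lam : ℝ} (hlam : 0 < lam) (E : ℝ) :
    Cau2 E (CL lam E) (nuS lam (lam * tau0 / 2)) := by
  refine cau2_nuS (by have := tau0_pos; positivity) ?_ E
  have h1 := tau0_le
  nlinarith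

section

variable {N : ℕ} [NeZero N] {W : StW N} {lam E C1 η : ℝ}

/-- the law error of the energy of the family `F` -/
noncomputable def ErrF (W : StW N) (E : ℝ) {κ : Type} [Fintype κ] (F : κ → Tor N → ℝ) (τ : ℝ) : ℝ :=
  ErrG (AT N) W.p W.ν E F (eT W.u W.w τ) (wT W.w τ)

theorem cau2_of_ok (h : W.Ok lam E C1 η) (hlam : 0 < lam) (τ : ℝ) :
    ∀ l x, wT W.w τ l x ≠ 0 → Cau2 E (CL lam E) (W.ν (l x)) := by
  intro l x hw
  have h1 : W.w l x ≠ 0 := by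
    intro h0
    apply hw
    unfold wT
    rw [h0, mul_zero]
  rw [h.mov l x h1]
  exact cau2_mov hlam E

theorem w_le_one (h : W.Ok lam E C1 η) (l : Tor N → W.Λ) (x : Tor N) : W.w l x ≤ 1 := by
  obtain ⟨b, hb, hub⟩ := h.u_pos
  have h1 := hub l x
  have h2 := h.e_le l x
  linarith

theorem eT_pos' (h : W.Ok lam E C1 η) (τ : ℝ) (l : Tor N → W.Λ) (x : Tor N) :
    0 < eT W.u W.w τ l x := by
  obtain ⟨b, hb, hub⟩ := h.u_pos
  exact eT_pos hb hub h.w_nonneg τ l x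

/-- **the exact derivative of the energy in logarithmic time** -/
theorem hasDerivAt_Phi (h : W.Ok lam E C1 η) {κ : Type} [Fintype κ] (F : κ → Tor N → ℝ) (τ : ℝ) :
    HasDerivAt (fun τ => W.Phi E F τ) (-(W.LossF E F τ + ErrF W E F τ)) τ := by
  haveI := h.prob
  obtain ⟨b, hb, hub⟩ := h.u_pos
  exact hasDerivAt_PhiG_log (AT_symm N) hb one_pos hub h.w_nonneg (w_le_one h) τ

theorem continuous_Phi (h : W.Ok lam E C1 η) {κ : Type} [Fintype κ] (F : κ → Tor N → ℝ) :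
    Continuous fun τ => W.Phi E F τ :=
  continuous_iff_continuousAt.2 fun τ => (hasDerivAt_Phi h F τ).continuousAt

theorem Phi_nonneg (h : W.Ok lam E C1 η) {κ : Type} [Fintype κ] (F : κ → Tor N → ℝ) (τ : ℝ) :
    0 ≤ W.Phi E F τ :=
  PhiG_nonneg h.p_nonneg fun l x => (eT_pos' h τ l x).le

theorem LossF_nonneg (h : W.Ok lam E C1 η) {κ : Type} [Fintype κ] (F : κ → Tor N → ℝ) (τ : ℝ) :
    0 ≤ W.LossF E F τ :=
  LossG_nonneg (AT_symm N) h.p_nonneg (fun l x => eT_pos' h τ l x)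
    (fun l x => wT_nonneg h.w_nonneg τ l x)

theorem Yg_nonneg (h : W.Ok lam E C1 η) {κ : Type} [Fintype κ] (F : κ → Tor N → ℝ) (τ : ℝ) :
    0 ≤ W.Yg E F τ :=
  YG_nonneg h.p_nonneg (fun l x => eT_pos' h τ l x) (fun l x => wT_nonneg h.w_nonneg τ l x)

/-- **the law error is paid by the off-resonant energy** -/
theorem abs_ErrF_le (h : W.Ok lam E C1 η) (hlam : 0 < lam) {κ : Type} [Fintype κ]
    (F : κ → Tor N → ℝ) (τ : ℝ) :
    |ErrF W E F τ| ≤ 10 * CL lam E * W.Yg E F τ := by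
  haveI := h.prob
  exact abs_ErrG_le (AT_symm N) h.p_nonneg (fun l x => eT_pos' h τ l x)
    (fun l x => wT_nonneg h.w_nonneg τ l x) (cau2_of_ok h hlam τ)

theorem Yg_le (h : W.Ok lam E C1 η) {κ : Type} [Fintype κ] {F : κ → Tor N → ℝ} {Λf : ℝ}
    (hη : 0 < η) (hΛ : 0 ≤ Λf) (hF : VecLip F Λf) {τ : ℝ} (hτ : τ ∈ Set.Icc 0 W.S) :
    W.Yg E F τ ≤ η / W.S ^ 8 * ((C1 + 1) * (Λf ^ 2 * (N : ℝ) ^ 2)) := by
  have hS : 0 < W.S := lt_of_lt_of_le (by positivity) h.S_ge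
  refine (h.hub τ hτ κ F Λf hΛ hF).trans (mul_le_mul_of_nonneg_left ?_ (by positivity))
  have h1 := h.en_le τ hτ κ F Λf hΛ hF
  linarith

/-- **the law error is tiny** -/
theorem abs_ErrF_le' (h : W.Ok lam E C1 η) (hlam : 0 < lam) {κ : Type} [Fintype κ]
    {F : κ → Tor N → ℝ} {Λf : ℝ} (hη : 0 < η) (hΛ : 0 ≤ Λf) (hF : VecLip F Λf) {τ : ℝ}
    (hτ : τ ∈ Set.Icc 0 W.S) :
    |ErrF W E F τ| ≤ 10 * CL lam E * (η / W.S ^ 8) * (C1 + 1) * (Λf ^ 2 * (N : ℝ) ^ 2) := by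
  refine (abs_ErrF_le h hlam F τ).trans ?_
  have h1 := mul_le_mul_of_nonneg_left (Yg_le h hη hΛ hF hτ)
    (show (0 : ℝ) ≤ 10 * CL lam E by have := CL_pos hlam E; positivity)
  linarith [h1]

/-! ### the fields of `Flow` -/

/-- energy per site -/
noncomputable def Dn (W : StW N) (E : ℝ) (τ : ℝ) : ℝ := W.Phi E (phi N) τ / (N : ℝ) ^ 2

/-- loss per site -/
noncomputable def Ln (W : StW N) (E : ℝ) (τ : ℝ) : ℝ := W.LossF E (phi N) τ / (N : ℝ) ^ 2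

theorem Npos : (0 : ℝ) < (N : ℝ) ^ 2 := by
  have h : (0 : ℝ) < N := by exact_mod_cast Nat.pos_of_ne_zero (NeZero.ne N)
  positivity

/-- `D0` -/
theorem Dn_nonneg (h : W.Ok lam E C1 η) (τ : ℝ) : 0 ≤ Dn W E τ :=
  div_nonneg (Phi_nonneg h _ τ) (Npos (N := N)).le

/-- `D1` -/
theorem Dn_le (h : W.Ok lam E C1 η) {τ : ℝ} (hτ : τ ∈ Set.Icc 0 W.S) : Dn W E τ ≤ 4 * C1 := by
  unfold Dn
  rw [div_le_iff₀ (Npos (N := N))]
  have h1 := h.en_le τ hτ (Fin 4) (phi N) 2 (by norm_num) VecLip_phi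
  linarith

/-- `Loss0` -/
theorem Ln_nonneg (h : W.Ok lam E C1 η) (τ : ℝ) : 0 ≤ Ln W E τ :=
  div_nonneg (LossF_nonneg h _ τ) (Npos (N := N)).le

/-- `cD` -/
theorem continuousOn_Dn (h : W.Ok lam E C1 η) (s : Set ℝ) : ContinuousOn (Dn W E) s :=
  ((continuous_Phi h (phi N)).div_const _).continuousOn

/-- the derivative of the energy per site -/
theorem hasDerivAt_Dn (h : W.Ok lam E C1 η) (τ : ℝ) :
    HasDerivAt (Dn W E) (-(Ln W E τ) - ErrF W E (phi N) τ / (N : ℝ) ^ 2) τ := by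
  have h1 := (hasDerivAt_Phi h (phi N) τ).div_const ((N : ℝ) ^ 2)
  have h2 : -(W.LossF E (phi N) τ + ErrF W E (phi N) τ) / (N : ℝ) ^ 2 =
      -(Ln W E τ) - ErrF W E (phi N) τ / (N : ℝ) ^ 2 := by
    unfold Ln
    ring
  rw [h2] at h1
  exact h1

theorem abs_err_Dn (h : W.Ok lam E C1 η) (hlam : 0 < lam) (hη : 0 < η) {τ : ℝ}
    (hτ : τ ∈ Set.Icc 0 W.S) :
    |ErrF W E (phi N) τ / (N : ℝ) ^ 2| ≤ 40 * CL lam E * (η / W.S ^ 8) * (C1 + 1) := by
  have h1 := abs_ErrF_le' h hlam hη (by norm_num) VecLip_phi hτ (F := phi N)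
  rw [abs_div, abs_of_pos (Npos (N := N)), div_le_iff₀ (Npos (N := N))]
  linarith

/-- `dD` -/
theorem dDn (h : W.Ok lam E C1 η) (hlam : 0 < lam) (hη : 0 < η) :
    ∀ τ ∈ Ioo 0 W.S, ∃ d, HasDerivAt (Dn W E) d τ ∧
      d ≤ -(Ln W E τ) + 40 * CL lam E * (η / W.S ^ 8) * (C1 + 1) := by
  intro τ hτ
  refine ⟨_, hasDerivAt_Dn h τ, ?_⟩
  have h1 := abs_err_Dn h hlam hη ⟨hτ.1.le, hτ.2.le⟩
  have h2 := (abs_le.1 h1).1
  linarith

/-- all the law errors are below `ε` when `η` is small (`S ≥ 1 / η ≥ 1`) -/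
theorem err_small (h : W.Ok lam E C1 η) (hη : 0 < η) (hη1 : η ≤ 1) : η / W.S ^ 8 ≤ η ^ 9 := by
  have hS : 1 / η ≤ W.S := h.S_ge
  have h0 : 0 < 1 / η := by positivity
  have h1 : (1 / η) ^ 8 ≤ W.S ^ 8 := pow_le_pow_left₀ h0.le hS 8
  have h3 : 0 < W.S := h0.trans_le hS
  rw [div_le_iff₀ (by positivity)]
  have h2 : η ^ 9 * (1 / η) ^ 8 = η := by
    field_simp
  nlinarith [mul_le_mul_of_nonneg_left h1 (show (0 : ℝ) ≤ η ^ 9 by positivity)]

end

end P365T2.H548
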