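import Vale.Agent.P365.T2.H548.Kfields
import Vale.Agent.P365.T2.H704.Bind

/-!
# P365-T2: `HubEn` of `H704/Bind.lean`
-/

set_option linter.all false

namespace P365T2.H548

open P365T2.H704 P365T2.H213 P365V4.K685

theorem C1K_pos (lam E : ℝ) (rs : ℕ) : 0 < C1K lam E rs := by
  unfold C1K
  positivity

/-- **(k2), (k3) of `KBind`** -/
theorem hubEn : P365T2.H704.HubEn := by
  intro lam E yf Vsf hlam hE hK
  obtain ⟨R, hR, h⟩ := kbind_hub_en hlam hK (K := 65) le_rfl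
  refine ⟨R, hR, fun rs hrs => ⟨C1K lam E rs, C1K_pos lam E rs, fun η hη => ?_⟩⟩
  obtain ⟨i₀, h⟩ := h rs hrs η hη
  refine ⟨i₀, fun i hi I hI N _ b hf => ?_⟩
  obtain ⟨-, h1, h2, -⟩ := h i hi I (by omega) N b hf
  exact ⟨h1, h2⟩

end P365T2.H548
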