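import Vale.Agent.P365.T2.H548.FlowD
import Vale.Agent.P365.T2.H685.KTopSpec
import Vale.Agent.P365.V4.KState685

/-!
# P365-T2: fields (k2) `hub` and (k3) `en_le` of `StW.Ok` for the concrete worlds (helper548)

`WHub` = one world with the hubs of the rate `1 / r_i ^ K` (delivered by `KTop`).
-/

set_option linter.all false

namespace P365T2.H548

open P365L P365O P365T1 P365L.TL Matrix Complex MeasureTheory Filter Topology Set
open P365T1.Conc (tau0 tau0_pos tau0_le)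
open Vale.Agent.P365.J376 P365T2.SeqG P365T2.SeqF P365V4.Free P365T2.H213 P365V4.K685
open P365T2.ConcG (PP QQ DD pS nuD DS AdmS nuD_mov' nuD_supp nuD_densLe DS_pos sum_pS_DS)
open P365T2.H685 (card_Tor)
open scoped ComplexConjugate ENNReal

/-- one world, admissible, with the hubs of all stages, rate `1 / r_i ^ K` -/
structure WHub (lam E : ℝ) (yf : ℕ → ℤ × ℤ) (Vsf : ℕ → ℤ × ℤ → ℝ) (rs I N : ℕ) [NeZero N]
    (b : ℝ) (fl : (PP 8 yf rs I).Lb → Tor N → ℝ) (b' : ℝ) (K : ℕ) : Prop where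
  adm : AdmS 8 lam yf Vsf rs I
  fok : FlOk yf rs I N b fl b'
  ok : (World lam yf Vsf rs I N b fl b').Ok (nuL lam)
  hub : ∀ i ≤ I, ∀ s, tF 8 rs I b (i + 1) ≤ s → s ≤ 1 →
    HC4 (World lam yf Vsf rs I N b fl b').toV3 N Finset.univ E
      ((World lam yf Vsf rs I N b fl b').prof i s s) i (1 / (rr 8 rs i : ℝ) ^ K) ∧
    ∀ (κ : Type) [Fintype κ] (F : κ → Tor N → ℝ) (Λf : ℝ), 0 ≤ Λf → VecLip F Λf →
      HBe (World lam yf Vsf rs I N b fl b').toV3 N Finset.univ F E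
        ((World lam yf Vsf rs I N b fl b').prof i s s) i s (1 / (rr 8 rs i : ℝ) ^ K)
        (Λf ^ 2 * (N : ℝ) ^ 2)

/-- `KTop` gives `WHub` -/
theorem whub_of_KTop {lam E : ℝ} {yf : ℕ → ℤ × ℤ} {Vsf : ℕ → ℤ × ℤ → ℝ}
    (h : KTop lam E yf Vsf) (K : ℕ) : ∃ R : ℕ, 2 ≤ R ∧ ∀ rs, R ≤ rs → ∀ (I N : ℕ) [NeZero N]
      (b : ℝ) (fl : (PP 8 yf rs I).Lb → Tor N → ℝ) (b' : ℝ), FlOk yf rs I N b fl b' →
      WHub lam E yf Vsf rs I N b fl b' K := by
  obtain ⟨R, hR, -, h⟩ := h K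
  refine ⟨R, hR, fun rs hrs I N _ b fl b' hf => ?_⟩
  obtain ⟨ha, h⟩ := h rs hrs I
  obtain ⟨hW, h⟩ := h N b fl b' hf
  exact ⟨ha, hf, hW, h⟩

section

variable {lam E : ℝ} {yf : ℕ → ℤ × ℤ} {Vsf : ℕ → ℤ × ℤ → ℝ} {rs I N : ℕ} [NeZero N]
  {b : ℝ} {fl : (PP 8 yf rs I).Lb → Tor N → ℝ} {b' : ℝ} {K : ℕ}

theorem WHub.b_le_one (h : WHub lam E yf Vsf rs I N b fl b' K) : b ≤ 1 :=
  (((h.fok.fl_ge none 0).trans (h.fok.fl_le none 0)).trans h.fok.b'_le).trans (e0S_le_one rs I)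

theorem mov_law_gen {β : ℕ} [Fact (2 ≤ β)] {lam : ℝ} {yf : ℕ → ℤ × ℤ}
    {Vsf : ℕ → ℤ × ℤ → ℝ} {rs I N : ℕ} [NeZero N] {b : ℝ} {X : Finset (Tor N)}
    {fl : (PP β yf rs I).Lb → Tor N → ℝ} {b' : ℝ} (h : AdmS β lam yf Vsf rs I)
    {k : (PP β yf rs I).Lb}
    (hk : (Wf (tF β rs I b) b (pS β yf rs I) (nuD β lam yf Vsf rs I) X fl b').mov k) :
    (Wf (tF β rs I b) b (pS β yf rs I) (nuD β lam yf Vsf rs I) X fl b').ν k =
      nuS lam (lam * tau0 / 2) := nuD_mov' h hk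

theorem WHub.mov_law (h : WHub lam E yf Vsf rs I N b fl b' K)
    {k : (World lam yf Vsf rs I N b fl b').Λ} (hk : (World lam yf Vsf rs I N b fl b').mov k) :
    (World lam yf Vsf rs I N b fl b').ν k = nuS lam (lam * tau0 / 2) :=
  mov_law_gen (β := 8) h.adm hk

theorem WHub.cau (hlam : 0 < lam) (h : WHub lam E yf Vsf rs I N b fl b' K) :
    ∀ k, (World lam yf Vsf rs I N b fl b').mov k →
      Cau2 E (CauC lam E) ((World lam yf Vsf rs I N b fl b').ν k) := by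
  intro k hk
  rw [h.mov_law hk]
  exact cau2_CauC hlam E

/-- the accumulated rate is bounded by a number of `rs` -/
theorem WHub.acc_le (h : WHub lam E yf Vsf rs I N b fl b' K) (hrs : 2 ≤ rs) (hK : 42 ≤ K) :
    (World lam yf Vsf rs I N b fl b').acc (CauC lam E)
      (fun i => 1 / (rr 8 rs i : ℝ) ^ K) (fun i => 1 / (rr 8 rs i : ℝ) ^ K)
      ((World lam yf Vsf rs I N b fl b').I + 1) ≤
      10 * (4 + (rs : ℝ) + (rs : ℝ) ^ 5) + 3 * (30 * CauC lam E) / rs := by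
  have h1 := hsum_F (β := 8) (b := b) (I := I) (A := 9) hrs (by norm_num) h.fok.b_ge h.b_le_one
    (Ca := 30 * CauC lam E) (η := fun i => 1 / (rr 8 rs i : ℝ) ^ K)
    (by have := CauC_nonneg lam E; positivity) (fun i => by positivity) (fun i => by
      have h2 := two_le_cast_rr (β := 8) hrs i
      exact one_div_le_one_div_of_le (by positivity) (pow_le_pow_right₀ (by linarith) hK))
  refine le_trans (le_of_eq ?_) h1
  show 10 * Real.log (1 / tF 8 rs I b 0) + ∑ j ∈ Finset.range (I + 1),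
    10 * CauC lam E * (1 / (rr 8 rs j : ℝ) ^ K + 2 * (1 / (rr 8 rs j : ℝ) ^ K)) *
      Real.log (1 / tF 8 rs I b (j + 1)) = _
  congr 1
  refine Finset.sum_congr rfl fun j _ => ?_
  ring

/-- **(k3) at every stage and time** -/
theorem WHub.state (hlam : 0 < lam) (h : WHub lam E yf Vsf rs I N b fl b' K) (hrs : 2 ≤ rs)
    (hK : 42 ≤ K) {i : ℕ} (hi : i ≤ I) {τ : ℝ}
    (hτ : τ ∈ Icc 0 (Real.log (1 / tF 8 rs I b (i + 1)))) {κ : Type} [Fintype κ]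
    {F : κ → Tor N → ℝ} {Λf : ℝ} (hΛ : 0 ≤ Λf) (hF : VecLip F Λf) :
    PhiG (AT N) (World lam yf Vsf rs I N b fl b').p (World lam yf Vsf rs I N b fl b').ν E F
        (eT ((World lam yf Vsf rs I N b fl b').us (i + 1))
          ((World lam yf Vsf rs I N b fl b').Ws (i + 1)) τ) + Λf ^ 2 * (N : ℝ) ^ 2 ≤
      C1K lam E rs * (Λf ^ 2 * (N : ℝ) ^ 2) := by
  have h2 := h.ok.state_le_const hF (E := E) (C := CauC lam E)
    (ηc := fun i => 1 / (rr 8 rs i : ℝ) ^ K) (ηb := fun i => 1 / (rr 8 rs i : ℝ) ^ K)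
    (fun j _ => by positivity) (fun j _ => by positivity) (CauC_nonneg lam E) (h.cau hlam)
    (fun j hj s hs => (h.hub j hj s hs.1.le hs.2.le).1)
    (fun j hj s hs => by
      have h3 := (h.hub j hj s hs.1.le hs.2.le).2 κ F Λf hΛ hF
      rw [show (World lam yf Vsf rs I N b fl b').X = Finset.univ from rfl, card_Tor]
      exact h3) (h.acc_le hrs hK) hi hτ
  rw [show (World lam yf Vsf rs I N b fl b').X = Finset.univ from rfl, card_Tor,
    Vale.Agent.P365.J376.ATX_univ] at h2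
  refine h2.trans (le_of_eq ?_)
  unfold C1K
  ring

/-- **(k2) at every stage and time** -/
theorem WHub.yg (h : WHub lam E yf Vsf rs I N b fl b' K) {i : ℕ} (hi : i ≤ I) {τ : ℝ}
    (hτ : 0 ≤ τ) (ht : tF 8 rs I b (i + 1) ≤ Real.exp (-τ)) {κ : Type} [Fintype κ]
    {F : κ → Tor N → ℝ} {Λf : ℝ} (hΛ : 0 ≤ Λf) (hF : VecLip F Λf) :
    YG (AT N) (World lam yf Vsf rs I N b fl b').p (World lam yf Vsf rs I N b fl b').ν E F
        (eT ((World lam yf Vsf rs I N b fl b').us (i + 1))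
          ((World lam yf Vsf rs I N b fl b').Ws (i + 1)) τ)
        (wT ((World lam yf Vsf rs I N b fl b').Ws (i + 1)) τ) ≤
      3 / (rr 8 rs i : ℝ) ^ K *
        (PhiG (AT N) (World lam yf Vsf rs I N b fl b').p (World lam yf Vsf rs I N b fl b').ν E F
          (eT ((World lam yf Vsf rs I N b fl b').us (i + 1))
            ((World lam yf Vsf rs I N b fl b').Ws (i + 1)) τ) + Λf ^ 2 * (N : ℝ) ^ 2) := by
  have hs1 : Real.exp (-τ) ≤ 1 := Real.exp_le_one_iff.2 (by linarith)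
  have hh := h.hub i hi _ ht hs1
  have h5 := h.ok.YG_log F E (i := i) hi (ηc := 1 / (rr 8 rs i : ℝ) ^ K)
    (ηb := 1 / (rr 8 rs i : ℝ) ^ K) (c := Λf ^ 2 * (N : ℝ) ^ 2) (by positivity) (by positivity)
    (by positivity) hτ hh.1 (hh.2 κ F Λf hΛ hF)
  rw [show (World lam yf Vsf rs I N b fl b').X = Finset.univ from rfl,
    Vale.Agent.P365.J376.ATX_univ] at h5
  refine h5.trans (le_of_eq ?_)
  ring

end

/-! ### numbers of the good part -/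

theorem Sgood_le (rs i : ℕ) : Sgood rs i ≤ (rr 8 rs i : ℝ) ^ 8 := by
  unfold Sgood
  rw [rr_succ_cast]
  have : (0 : ℝ) ≤ rr 8 rs i := Nat.cast_nonneg _
  linarith

theorem le_Sgood {rs : ℕ} (hrs : 2 ≤ rs) (i : ℕ) : (rr 8 rs i : ℝ) ≤ Sgood rs i := by
  have h1 := log_ratio_ge (β := 8) hrs i
  rw [log_ratio] at h1
  exact h1

theorem Sgood_pos {rs : ℕ} (hrs : 2 ≤ rs) (i : ℕ) : 0 < Sgood rs i := by
  have h1 := le_Sgood hrs i
  have h2 := two_le_cast_rr (β := 8) hrs i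
  linarith

theorem tF_le_exp {rs I i : ℕ} {b : ℝ} (hrs : 2 ≤ rs) (hi : i < I) {τ : ℝ}
    (hτ : τ ≤ Sgood rs i) : tF 8 rs I b (i + 1) ≤ Real.exp (-τ) := by
  refine (tF_le_ratio (β := 8) hrs hi).trans ?_
  have h1 := e0S_pos (β := 8) rs i
  have h2 := e0S_pos (β := 8) rs (i + 1)
  have h3 := log_ratio (β := 8) rs i
  rw [one_div, Real.log_inv] at h3
  have h4 : e0S 8 rs (i + 1) / e0S 8 rs i = Real.exp (-(Sgood rs i)) := by
    unfold Sgood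
    rw [← h3, neg_neg, Real.exp_log (by positivity)]
  rw [h4]
  exact Real.exp_le_exp.2 (by linarith)

theorem Sgood_le_log {rs I i : ℕ} {b : ℝ} (hb : 0 < b) (hrs : 2 ≤ rs) (hi : i < I) :
    Sgood rs i ≤ Real.log (1 / tF 8 rs I b (i + 1)) := by
  have h1 := tF_le_exp (b := b) hrs hi (le_refl (Sgood rs i))
  have h2 := tF_pos (β := 8) (rs := rs) (I := I) hb (i + 1)
  have h3 := Real.log_le_log h2 h1
  rw [Real.log_exp] at h3
  rw [one_div, Real.log_inv]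
  linarith

/-- the rate of the hub is below `η / S ^ 8` -/
theorem rate_le {rs i : ℕ} (hrs : 2 ≤ rs) {K : ℕ} (hK : 65 ≤ K) {η : ℝ} (hη : 0 < η)
    (hi : 3 / η ≤ i) : 3 / (rr 8 rs i : ℝ) ^ K ≤ η / Sgood rs i ^ 8 := by
  have h2 := two_le_cast_rr (β := 8) hrs i
  have h3 : (i : ℝ) ≤ rr 8 rs i := by exact_mod_cast (lt_rr (β := 8) hrs i).le
  have h4 : 3 ≤ η * rr 8 rs i := by
    rw [div_le_iff₀ hη] at hi
    nlinarith
  have h5 := Sgood_pos hrs i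
  have h6 : Sgood rs i ^ 8 ≤ (rr 8 rs i : ℝ) ^ 64 := by
    have := pow_le_pow_left₀ h5.le (Sgood_le rs i) 8
    rw [← pow_mul] at this
    exact this
  have h7 : (rr 8 rs i : ℝ) ^ 65 ≤ (rr 8 rs i : ℝ) ^ K :=
    pow_le_pow_right₀ (by linarith) hK
  rw [div_le_div_iff₀ (by positivity) (by positivity)]
  calc 3 * Sgood rs i ^ 8 ≤ (η * rr 8 rs i) * (rr 8 rs i : ℝ) ^ 64 := by gcongr
    _ = η * (rr 8 rs i : ℝ) ^ 65 := by ring
    _ ≤ η * (rr 8 rs i : ℝ) ^ K := by gcongr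

/-- `S_ge` -/
theorem S_ge_of {rs i : ℕ} (hrs : 2 ≤ rs) {η : ℝ} (hi : 1 / η ≤ i) : 1 / η ≤ Sgood rs i := by
  have h3 : (i : ℝ) ≤ rr 8 rs i := by exact_mod_cast (lt_rr (β := 8) hrs i).le
  exact hi.trans (h3.trans (le_Sgood hrs i))

/-! ### the two fields, literally -/

section

variable {lam E : ℝ} {yf : ℕ → ℤ × ℤ} {Vsf : ℕ → ℤ × ℤ → ℝ} {rs I N : ℕ} [NeZero N]
  {b : ℝ} {fl : (PP 8 yf rs I).Lb → Tor N → ℝ} {b' : ℝ} {K : ℕ}

/-- **field `hub`** -/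
theorem WHub.hub_stOf (hlam : 0 < lam) (h : WHub lam E yf Vsf rs I N b fl b' K) (hrs : 2 ≤ rs)
    (hK : 65 ≤ K) {η : ℝ} (hη : 0 < η) {i : ℕ} (hi : i < I) (hi0 : 3 / η ≤ i) :
    ∀ τ ∈ Set.Icc 0 (stOf (World lam yf Vsf rs I N b fl b') i (Sgood rs i)).S,
      ∀ (κ : Type) [Fintype κ] (F : κ → Tor N → ℝ) (Λf : ℝ), 0 ≤ Λf → VecLip F Λf →
      (stOf (World lam yf Vsf rs I N b fl b') i (Sgood rs i)).Yg E F τ ≤
        η / (stOf (World lam yf Vsf rs I N b fl b') i (Sgood rs i)).S ^ 8 *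
        ((stOf (World lam yf Vsf rs I N b fl b') i (Sgood rs i)).Phi E F τ +
          Λf ^ 2 * (N : ℝ) ^ 2) := by
  intro τ hτ κ _ F Λf hΛ hF
  have h1 := h.yg hi.le hτ.1 (tF_le_exp hrs hi hτ.2) hΛ hF
  have h2 : 0 ≤ PhiG (AT N) (World lam yf Vsf rs I N b fl b').p
      (World lam yf Vsf rs I N b fl b').ν E F
      (eT ((World lam yf Vsf rs I N b fl b').us (i + 1))
        ((World lam yf Vsf rs I N b fl b').Ws (i + 1)) τ) :=
    PhiG_nonneg h.ok.p_nonneg fun l x =>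
      (eT_pos h.ok.b_pos (fun l x => h.ok.us_ge (i + 1) l x)
        (fun l x => h.ok.toOk.Ws_nonneg (by
          show i + 1 ≤ I + 1
          omega) l x) τ l x).le
  exact h1.trans (mul_le_mul_of_nonneg_right (rate_le hrs hK hη hi0) (by positivity))

/-- **field `en_le`**, `C1 = C1K lam E rs` -/
theorem WHub.en_le_stOf (hlam : 0 < lam) (h : WHub lam E yf Vsf rs I N b fl b' K)
    (hrs : 2 ≤ rs) (hK : 42 ≤ K) {i : ℕ} (hi : i < I) {C1 : ℝ} (hC1 : C1K lam E rs ≤ C1) :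
    ∀ τ ∈ Set.Icc 0 (stOf (World lam yf Vsf rs I N b fl b') i (Sgood rs i)).S,
      ∀ (κ : Type) [Fintype κ] (F : κ → Tor N → ℝ) (Λf : ℝ), 0 ≤ Λf → VecLip F Λf →
      (stOf (World lam yf Vsf rs I N b fl b') i (Sgood rs i)).Phi E F τ ≤
        C1 * (Λf ^ 2 * (N : ℝ) ^ 2) := by
  intro τ hτ κ _ F Λf hΛ hF
  have h1 := h.state hlam hrs hK hi.le
    (τ := τ) ⟨hτ.1, hτ.2.trans (Sgood_le_log h.fok.b_pos hrs hi)⟩ hΛ hF
  have h2 : 0 ≤ Λf ^ 2 * (N : ℝ) ^ 2 := by positivity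
  have h3 := mul_le_mul_of_nonneg_right hC1 h2
  refine le_trans ?_ (h1.trans h3)
  exact le_add_of_nonneg_right h2

end

/-- **(k2) (k3) of `KBind`**, quantifiers of `Spec` (homogeneous floor) -/
theorem kbind_hub_en {lam E : ℝ} {yf : ℕ → ℤ × ℤ} {Vsf : ℕ → ℤ × ℤ → ℝ} (hlam : 0 < lam)
    (h : KTop lam E yf Vsf) {K : ℕ} (hK : 65 ≤ K) :
    ∃ R : ℕ, 2 ≤ R ∧ ∀ rs, R ≤ rs → ∀ η : ℝ, 0 < η → ∃ i₀ : ℕ, ∀ i, i₀ ≤ i → ∀ I, i < I →
      ∀ (N : ℕ) [NeZero N] (b : ℝ), FlOk yf rs I N b (fun _ _ => b) b →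
      WHub lam E yf Vsf rs I N b (fun _ _ => b) b K ∧
      (∀ τ ∈ Set.Icc 0 (stOf (World lam yf Vsf rs I N b (fun _ _ => b) b) i (Sgood rs i)).S,
        ∀ (κ : Type) [Fintype κ] (F : κ → Tor N → ℝ) (Λf : ℝ), 0 ≤ Λf → VecLip F Λf →
        (stOf (World lam yf Vsf rs I N b (fun _ _ => b) b) i (Sgood rs i)).Yg E F τ ≤
          η / (stOf (World lam yf Vsf rs I N b (fun _ _ => b) b) i (Sgood rs i)).S ^ 8 *
          ((stOf (World lam yf Vsf rs I N b (fun _ _ => b) b) i (Sgood rs i)).Phi E F τ +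
            Λf ^ 2 * (N : ℝ) ^ 2)) ∧
      (∀ τ ∈ Set.Icc 0 (stOf (World lam yf Vsf rs I N b (fun _ _ => b) b) i (Sgood rs i)).S,
        ∀ (κ : Type) [Fintype κ] (F : κ → Tor N → ℝ) (Λf : ℝ), 0 ≤ Λf → VecLip F Λf →
        (stOf (World lam yf Vsf rs I N b (fun _ _ => b) b) i (Sgood rs i)).Phi E F τ ≤
          C1K lam E rs * (Λf ^ 2 * (N : ℝ) ^ 2)) ∧
      1 / η ≤ (stOf (World lam yf Vsf rs I N b (fun _ _ => b) b) i (Sgood rs i)).S := by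
  obtain ⟨R, hR, h⟩ := whub_of_KTop h K
  refine ⟨R, hR, fun rs hrs η hη => ?_⟩
  obtain ⟨i₀, hi₀⟩ := exists_nat_gt (3 / η)
  refine ⟨i₀, fun i hi I hI N _ b hf => ?_⟩
  have h1 := h rs hrs I N b _ b hf
  have h2 : (i₀ : ℝ) ≤ i := by exact_mod_cast hi
  have h3 : 3 / η ≤ i := by linarith
  have h4 : 1 / η ≤ 3 / η := by
    apply div_le_div_of_nonneg_right (by norm_num) hη.le
  exact ⟨h1, h1.hub_stOf hlam (by omega) hK hη hI h3, h1.en_le_stOf hlam (by omega) (by omega) hI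
    le_rfl, S_ge_of (by omega) (h4.trans h3)⟩

end P365T2.H548
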